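import Vale.Agent.P286EG.IF

/-!
# Exact complexes of flat modules over smooth algebras stay exact after base change
-/

set_option linter.all false

namespace Vale.Agent.P286EG1

open Vale.Agent.P286 TensorProduct Polynomial

/-- classes of modules -/
abbrev Cs (A : Type) [CommRing A] : Type 1 := ∀ (N : Type) [AddCommGroup N] [Module A N], Prop

/-- closure properties -/
structure Cl {A : Type} [CommRing A] (G : Cs A) : Prop where
  flat : ∀ (N : Type) [AddCommGroup N] [Module A N], Module.Flat A N → G N
  cok : ∀ (N' N N'' : Type) [AddCommGroup N'] [Module A N'] [AddCommGroup N] [Module A N]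
    [AddCommGroup N''] [Module A N''] (u : N' →ₗ[A] N) (v : N →ₗ[A] N''), Function.Injective u →
    Function.Exact u v → Function.Surjective v → G N' → G N → G N''
  ret : ∀ (N' N : Type) [AddCommGroup N'] [Module A N'] [AddCommGroup N] [Module A N]
    (u : N' →ₗ[A] N) (v : N →ₗ[A] N'), v ∘ₗ u = LinearMap.id → G N → G N'

/-- every module is built from flat modules -/
def All (A : Type) [CommRing A] : Prop :=
  ∀ G : Cs A, Cl G → ∀ (N : Type) [AddCommGroup N] [Module A N], G N

section

variable {S A : Type} [CommRing S] [CommRing A] [Algebra S A] [Module.Flat S A] {G : Cs A}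

theorem Cl.bc (h : Cl G) : Cl (A := S) fun N _ _ => G (A ⊗[S] N) where
  flat N _ _ _ := h.flat _ inferInstance
  cok N' N N'' _ _ _ _ _ _ u v a b c := h.cok _ _ _ (u.baseChange A) (v.baseChange A)
    (Module.Flat.lTensor_preserves_injective_linearMap u a) (lTensor_exact A b c)
    (LinearMap.lTensor_surjective A c)
  ret N' N _ _ _ _ u v a := h.ret _ _ (u.baseChange A) (v.baseChange A)
    (by rw [← LinearMap.baseChange_comp, a, LinearMap.baseChange_id])

theorem Cl.res {G : Cs S} (h : Cl G) :
    Cl (A := A) fun N _ _ => ∀ [Module S N] [IsScalarTower S A N], G N where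
  flat N _ _ _ _ _ := h.flat _ (Module.Flat.trans S A N)
  cok N' N N'' _ _ _ _ _ _ u v a b c d e _ _ := by
    letI : Module S N' := Module.compHom N' (algebraMap S A)
    letI : Module S N := Module.compHom N (algebraMap S A)
    have : IsScalarTower S A N' := .of_compHom S A N'
    have : IsScalarTower S A N := .of_compHom S A N
    exact h.cok N' N N'' (u.restrictScalars S) (v.restrictScalars S) a b c d e
  ret N' N _ _ _ _ u v a d _ _ := by
    letI : Module S N := Module.compHom N (algebraMap S A)
    have : IsScalarTower S A N := .of_compHom S A N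
    exact h.ret N' N (u.restrictScalars S) (v.restrictScalars S)
      (LinearMap.ext fun x => LinearMap.congr_fun a x) d

end

theorem all_field (K : Type) [Field K] : All K := fun _ h N _ _ => h.flat N inferInstance

theorem All.et {S A : Type} [CommRing S] [CommRing A] (h : All S) (g : S →+* A) (hg : g.Etale) :
    All A := fun G hG N _ _ => by
  algebraize [g]
  letI : Module S N := Module.compHom N (algebraMap S A)
  have : IsScalarTower S A N := .of_compHom S A N
  exact hG.ret _ _ _ _ (Algebra.FormallyUnramified.comp_sec S A N) (h _ hG.bc N)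

theorem All.poly {S : Type} [CommRing S] (h : All S) : All S[X] := fun G hG N _ _ => by
  letI : Module S N := Module.compHom N (algebraMap S S[X])
  have : IsScalarTower S S[X] N := .of_compHom S S[X] N
  let x : N →ₗ[S] N := (LinearMap.lsmul S[X] N X).restrictScalars S
  let u : S[X] ⊗[S] N →ₗ[S[X]] S[X] ⊗[S] N := LinearMap.lsmul S[X] _ X - x.baseChange S[X]
  let v : S[X] ⊗[S] N →ₗ[S[X]] N := LinearMap.liftBaseChange S[X] LinearMap.id
  have hu : ∀ z, u z = (X : S[X]) • z - x.baseChange S[X] z := fun _ => rfl
  have hv : ∀ s n, v (s ⊗ₜ n) = s • n := fun _ _ => rfl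
  refine hG.cok _ _ N u v ((injective_iff_map_eq_zero _).2 fun z hz => ?_) (fun z => ⟨fun c => ?_, ?_⟩)
    (fun n => ⟨1 ⊗ₜ n, by rw [hv, one_smul]⟩) (h _ hG.bc N) (h _ hG.bc N)
  · let e := PolynomialModule.polynomialTensorProductLEquivPolynomialModule S N
    have e0 : ∀ s n, e (s ⊗ₜ n) = s • PolynomialModule.single S 0 n := fun _ _ => rfl
    have e1 : ∀ z i, (e (x.baseChange S[X] z)).coeff i = x ((e z).coeff i) := fun z i => by
      induction z using TensorProduct.induction_on with
      | zero => simp
      | tmul s n =>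
        rw [LinearMap.baseChange_tmul, e0, e0, PolynomialModule.smul_single_apply,
          PolynomialModule.smul_single_apply]
        simp
      | add a b c d => simp only [map_add, PolynomialModule.coeff_add, Finsupp.add_apply, c, d]
    have e2 : ∀ i, (e z).coeff i = x ((e z).coeff (i + 1)) := fun i => by
      rw [← e1, ← sub_eq_zero.1 ((hu z).symm.trans hz), map_smul, ← monomial_one_one_eq_X,
        PolynomialModule.monomial_smul_apply]
      simp
    have e3 : ∀ m i, (e z).coeff (i + m) = 0 → (e z).coeff i = 0 := fun m => by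
      induction m with
      | zero => exact fun _ c => c
      | succ m ih => exact fun i c => ih i (by rw [e2, add_assoc, c, map_zero])
    refine e.map_eq_zero_iff.1 (PolynomialModule.coeff_eq_zero.1 (Finsupp.ext fun i => ?_))
    obtain ⟨b, hb⟩ := (e z).coeff.support.bddAbove
    exact e3 (b + 1) i (Finsupp.notMem_support_iff.1 fun c => by have := hb c; omega)
  · have k : ∀ z, z - 1 ⊗ₜ v z ∈ LinearMap.range u := fun z => by
      induction z using TensorProduct.induction_on with
      | zero => simp
      | add a b c d => rw [map_add, tmul_add, add_sub_add_comm]; exact add_mem c d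
      | tmul s n =>
        rw [hv]
        induction s using Polynomial.induction_on generalizing n with
        | C a =>
          rw [show C a = a • (1 : S[X]) by simp [smul_eq_C_mul], smul_tmul, smul_assoc, one_smul,
            sub_self]
          exact zero_mem _
        | add p q c d => rw [add_tmul, add_smul, tmul_add, add_sub_add_comm]; exact add_mem (c n) (d n)
        | monomial m a c =>
          have := add_mem (LinearMap.mem_range_self u ((C a * X ^ m) ⊗ₜ n)) (c (x n))
          rwa [hu, LinearMap.baseChange_tmul, sub_add_sub_cancel, smul_tmul', smul_eq_mul,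
            show (C a * X ^ m) • x n = (C a * X ^ (m + 1)) • n by
              rw [pow_succ, ← mul_assoc, mul_smul _ X]; rfl,
            mul_comm X, mul_assoc, ← pow_succ] at this
    have := k z
    rwa [c, tmul_zero, sub_zero] at this
  · rintro ⟨z, rfl⟩
    induction z using TensorProduct.induction_on with
    | zero => simp
    | add a b c d => rw [map_add, map_add, c, d, add_zero]
    | tmul s n =>
      rw [hu, map_sub, map_smul, LinearMap.baseChange_tmul, hv, hv, smul_comm, sub_eq_zero]
      rfl

theorem all_mv (K : Type) [Field K] (n : ℕ) : All (MvPolynomial (Fin n) K) := by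
  induction n with
  | zero =>
    exact (all_field K).et (MvPolynomial.isEmptyRingEquiv K _).symm.toRingHom
      (.of_bijective (MvPolynomial.isEmptyRingEquiv K _).symm.bijective)
  | succ n ih =>
    exact ih.poly.et (MvPolynomial.finSuccEquiv K n).symm.toRingEquiv.toRingHom
      (.of_bijective (MvPolynomial.finSuccEquiv K n).symm.bijective)

theorem cl_acyclic {A : Type} [CommRing A] (P : MCx A) (hP : ∀ i, Module.Flat A (P.X i))
    (h : P.Acyclic) : Cl (A := A) fun N _ _ => (P.tens N).Acyclic where
  flat N _ _ _ i j k a b z hz := (Module.Flat.lTensor_exact N (f := P.d i j) (g := P.d j k)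
    (fun y => ⟨h i j k a b y, fun ⟨w, e⟩ => e ▸ P.dd_apply i j k w⟩) z).1 hz
  cok N' N N'' _ _ _ _ _ _ u v a b c d e i j k hi hj z hz := by
    have s := MCx.SES.tens hP u v a b c
    obtain ⟨y, rfl⟩ := s.surj j z
    obtain ⟨w, hw⟩ := (s.exact k _).1 ((s.commβ j k y).trans hz)
    obtain ⟨t, rfl⟩ := d j k (k + 1) hj rfl w (s.inj _ (by
      rw [s.commα, hw, MCx.dd_apply, map_zero]))
    obtain ⟨r, hr⟩ := e i j k hi hj (y - u.rTensor _ t) (by rw [map_sub, ← s.commα, hw, sub_self])
    exact ⟨v.rTensor _ r, by rw [← s.commβ, hr, map_sub, s.bcomp, sub_zero]⟩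
  ret N' N _ _ _ _ u v a d i j k hi hj z hz := by
    have c : ∀ {M M' : Type} [AddCommGroup M] [Module A M] [AddCommGroup M'] [Module A M']
        (f : M →ₗ[A] M') i j x, (P.d i j).lTensor M' (f.rTensor _ x) =
          f.rTensor _ ((P.d i j).lTensor M x) := fun f i j x =>
      (LinearMap.congr_fun ((LinearMap.rTensor_comp_lTensor _ f (P.d i j)).trans
        (LinearMap.lTensor_comp_rTensor _ f (P.d i j)).symm) x).symm
    obtain ⟨y, hy⟩ := d i j k hi hj (u.rTensor _ z)
      ((c u j k z).trans ((congrArg _ hz).trans (map_zero _)))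
    refine ⟨v.rTensor _ y, (c v i j y).trans ((congrArg _ hy).trans ?_)⟩
    rw [← LinearMap.rTensor_comp_apply, a, LinearMap.rTensor_id, LinearMap.id_apply]

theorem loc_step {A : Type} [CommRing A] {P : MCx A} {M N : Type} [AddCommGroup M] [Module A M]
    [AddCommGroup N] [Module A N] {h : A} (u : M →ₗ[A] N)
    (hu : IsLocalizedModule (Submonoid.powers h) u) (hN : (P.tens N).Acyclic) {i j k : ℤ}
    (hi : i + 1 = j) (hj : j + 1 = k) {z : M ⊗[A] P.X j} (hz : (P.d j k).lTensor M z = 0) :
    ∃ n : ℕ, h ^ n • z ∈ LinearMap.range ((P.d i j).lTensor M) := by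
  have loc : ∀ i, IsLocalizedModule (Submonoid.powers h) (u.rTensor (P.X i)) := fun i =>
    IsLocalizedModule.rTensor (R := A) (A := A) (Submonoid.powers h) (N := P.X i) u
  have c : ∀ i j x, (P.d i j).lTensor N (u.rTensor _ x) = u.rTensor _ ((P.d i j).lTensor M x) :=
    fun i j x => (LinearMap.congr_fun ((LinearMap.rTensor_comp_lTensor _ u (P.d i j)).trans
      (LinearMap.lTensor_comp_rTensor _ u (P.d i j)).symm) x).symm
  obtain ⟨w, hw⟩ := hN i j k hi hj (u.rTensor _ z)
    ((c j k z).trans ((congrArg _ hz).trans (map_zero _)))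
  obtain ⟨⟨w0, ⟨_, n, rfl⟩⟩, hw0⟩ := IsLocalizedModule.surj (Submonoid.powers h) (u.rTensor (P.X i)) w
  have e1 : u.rTensor (P.X j) (h ^ n • z) = u.rTensor (P.X j) ((P.d i j).lTensor M w0) := by
    rw [← c, ← hw0, map_smul]
    exact (congrArg (h ^ n • ·) hw.symm).trans (map_smul _ _ _).symm
  obtain ⟨⟨_, m, rfl⟩, hm⟩ := (loc j).exists_of_eq e1
  refine ⟨m + n, h ^ m • w0, ?_⟩
  rw [map_smul, pow_add, mul_smul]
  exact hm.symm

/-- **KFLAT** -/
theorem kflat : P286EG.KFLAT := by
  intro A _ _ _ P hP h N _ _ i j k hi hj z hz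
  obtain ⟨s, h1, h2⟩ := Algebra.Smooth.exists_span_eq_top_isStandardSmooth ℂ A
  let I : Ideal A := (LinearMap.range ((P.d i j).lTensor N)).comap (LinearMap.toSpanSingleton A _ z)
  have : I.radical = ⊤ := top_le_iff.1 (h1.ge.trans (Ideal.span_le.2 fun f hf => by
    obtain ⟨n, g, -, hg⟩ := RingHom.IsStandardSmooth.exists_etale_mvPolynomial
      (f := algebraMap ℂ (Localization.Away f)) (RingHom.isStandardSmooth_algebraMap.2 (h2 f hf))
    exact loc_step (LocalizedModule.mkLinearMap (Submonoid.powers f) N) inferInstance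
      ((all_mv ℂ n).et g hg _ (cl_acyclic P hP h).res (LocalizedModule (Submonoid.powers f) N))
      hi hj hz))
  have e : (1 : A) ∈ I := (Ideal.radical_eq_top.1 this).ge trivial
  rw [Submodule.mem_comap, LinearMap.toSpanSingleton_apply, one_smul] at e
  exact e

end Vale.Agent.P286EG1
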